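import Vale.Agent.P153.R2.Base.Basic

/-!
# P153-R2, block MULT: inputs

* `S_circ` (block RDEC): in the law with free level-0 data, no path of `{h ≤ -3}` crosses a thick
  annulus around a wall point, uniformly in the domain (all channels at once).
* `S_blk` (block LAND): data `-3` on `Z` (inner and outer part), `+1` on the walls: with
  probability at least `c` the set `Z ∪ {h ≤ -1}` does not join `p` to `q`.
-/

namespace Vale.Agent.P153.R2.MULT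

open Set Relation
open Vale.Agent.P153 Vale.Agent.P153.Topo

/-- Height `-3` on `Z`, free on `V \ Z`, `+1` off `V`. -/
noncomputable def dat3 (V Z : Set Pt) : Pt → Set ℤ :=
  open Classical in fun x => if x ∈ Z then {-3} else if x ∈ V then univ else {1}

def S_circ : Prop := ∀ η : ℝ, 0 < η → ∃ N : ℕ, ∀ (V : Set Pt) (x₀ : Pt) (r : ℕ), V.Finite → CC V →
  1 ≤ r → (∃ x ∈ bx x₀ r, x ∉ V) →
  Pr (Cfg V (frd V 0)) {h | ∃ x ∈ bx x₀ r, ∃ y, y ∉ bx x₀ (N * r) ∧ Conn (V ∩ dn h (-3)) x y} ≤ η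

def S_blk : Prop := ∃ (N : ℕ) (c : ℝ), 0 < c ∧ ∀ (V Z : Set Pt) (x₀ : Pt) (r : ℕ), V.Finite →
  CC V → Z ⊆ V → CC (V \ Z) → 1 ≤ r → (∃ x ∈ bx x₀ r, x ∉ V) →
  (∀ x ∈ Z, x ∈ bx x₀ r ∨ x ∉ bx x₀ (N * r)) →
  ∀ p ∈ Z, p ∈ bx x₀ r → ∀ q ∈ Z, q ∉ bx x₀ (N * r) →
  c ≤ Pr (Cfg (V \ Z) (dat3 V Z)) {h | ¬ Conn (V ∩ (Z ∪ dn h (-1))) p q}

/-- The annulus. -/
def Ann (x₀ : Pt) (a b : ℤ) : Set Pt := {x | x ∉ bx x₀ a ∧ x ∈ bx x₀ b}

end Vale.Agent.P153.R2.MULT
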