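import Vale.Agent.P153.R2.MULT.Gen

/-!
# P153-R2, block MULT: one block

Given the heights off `Q`, explore the set joined to the outside of `Q` by heights at most `-5`.
If the explored set avoids the middle of `Q`, then the input `S_blk` applies in the rest of the
domain.
-/

namespace Vale.Agent.P153.R2.MULT

open Set Relation
open Vale.Agent.P153 Vale.Agent.P153.Topo

/-- The explored set. -/
def Yex (V Q : Set Pt) (h : Hg) : Set Pt := Cl (V ∩ (Qᶜ ∪ dn h (-5))) (V \ Q)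

/-- The explored set and its neighbours in `V`. -/
def Zex (V Q : Set Pt) (h : Hg) : Set Pt :=
  {x | x ∈ V ∧ (x ∈ Yex V Q h ∨ ∃ y ∈ Yex V Q h, Adj y x)}

/-- The explored set avoids `M`. -/
def GM (V Q M : Set Pt) : Set Hg := {h | ∀ v ∈ M, v ∉ Yex V Q h}

/-- The heights at least one in `Q` separate `p` from `q` in `V`. -/
def Gs (V Q : Set Pt) (p q : Pt) : Set Hg := {h | ¬ Conn (V \ (Q ∩ up h 1)) p q}

variable {V Q M : Set Pt} {h g : Hg} {x y p q : Pt}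

theorem Yex_subset : Yex V Q h ⊆ V := by
  rintro y ⟨x, _, hxy⟩
  exact hxy.right_mem.1

theorem diff_subset_Yex : V \ Q ⊆ Yex V Q h := fun x hx =>
  ⟨x, hx, Conn.refl ⟨hx.1, Or.inl hx.2⟩⟩

theorem Yex_subset_Zex : Yex V Q h ⊆ Zex V Q h := fun _ hx => ⟨Yex_subset hx, Or.inl hx⟩

theorem Zex_subset : Zex V Q h ⊆ V := fun _ hx => hx.1

theorem Yex_tail (hy : y ∈ Yex V Q h) (hyx : Adj y x) (hx : x ∈ V ∩ (Qᶜ ∪ dn h (-5))) :
    x ∈ Yex V Q h := by
  obtain ⟨u, hu, huy⟩ := hy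
  exact ⟨u, hu, huy.tail hyx hx⟩

theorem Yex_step (ho : Odd (h x)) (hx : x ∈ V) (hy : y ∈ Yex V Q h) (hyx : Adj y x)
    (hxY : x ∉ Yex V Q h) : x ∈ Q ∧ -3 ≤ h x := by
  have hxn : x ∉ V ∩ (Qᶜ ∪ dn h (-5)) := fun h1 => hxY (Yex_tail hy hyx h1)
  have hQ : x ∈ Q := by
    by_contra hQ
    exact hxn ⟨hx, Or.inl hQ⟩
  refine ⟨hQ, ?_⟩
  have h5 : ¬ h x ≤ -5 := fun h1 => hxn ⟨hx, Or.inr h1⟩
  obtain ⟨k, hk⟩ := ho
  omega

theorem Yex_stop (hgh : ∀ x ∈ Zex V Q h, g x = h x) : Yex V Q g = Yex V Q h := by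
  ext v
  constructor
  · rintro ⟨u, hu, huv⟩
    refine Conn.ind (S := V ∩ (Qᶜ ∪ dn g (-5))) (fun v => v ∈ Yex V Q h) (diff_subset_Yex hu) ?_ huv
    intro a b _ hab hb ih
    have hbZ : b ∈ Zex V Q h := ⟨hb.1, Or.inr ⟨a, ih, hab⟩⟩
    refine Yex_tail ih hab ⟨hb.1, ?_⟩
    rcases hb.2 with h1 | h1
    · exact Or.inl h1
    · refine Or.inr ?_
      show h b ≤ -5
      rw [← hgh b hbZ]
      exact h1
  · rintro ⟨u, hu, huv⟩
    have key : v ∈ Yex V Q h ∧ v ∈ Yex V Q g := by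
      refine Conn.ind (S := V ∩ (Qᶜ ∪ dn h (-5))) (fun v => v ∈ Yex V Q h ∧ v ∈ Yex V Q g)
        ⟨diff_subset_Yex hu, diff_subset_Yex hu⟩ ?_ huv
      intro a b _ hab hb ih
      have hbY : b ∈ Yex V Q h := Yex_tail ih.1 hab hb
      refine ⟨hbY, Yex_tail ih.2 hab ⟨hb.1, ?_⟩⟩
      rcases hb.2 with h1 | h1
      · exact Or.inl h1
      · refine Or.inr ?_
        show g b ≤ -5
        rw [hgh b (Yex_subset_Zex hbY)]
        exact h1
    exact key.2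

theorem Zex_stop (hgh : ∀ x ∈ Zex V Q h, g x = h x) : Zex V Q g = Zex V Q h := by
  unfold Zex
  rw [Yex_stop hgh]

theorem Zex_attached (hatt : ∀ x ∈ V \ Q, ∃ y, y ∉ V ∧ Conn ((V \ Q) ∪ Vᶜ) x y)
    (hx : x ∈ Zex V Q h) : ∃ y, y ∉ V ∧ Conn (Zex V Q h ∪ Vᶜ) x y := by
  have hY : ∀ x ∈ Yex V Q h, ∃ y, y ∉ V ∧ Conn (Zex V Q h ∪ Vᶜ) x y := by
    rintro x ⟨u, hu, hux⟩
    obtain ⟨y, hy, huy⟩ := hatt u hu
    have h1 : Conn (Zex V Q h ∪ Vᶜ) u y := huy.mono (union_subset_union_left _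
      (diff_subset_Yex.trans Yex_subset_Zex))
    have h2 : Conn (Zex V Q h ∪ Vᶜ) u x := by
      have : x ∈ Yex V Q h ∧ Conn (Zex V Q h ∪ Vᶜ) u x := by
        refine Conn.ind (S := V ∩ (Qᶜ ∪ dn h (-5)))
          (fun x => x ∈ Yex V Q h ∧ Conn (Zex V Q h ∪ Vᶜ) u x)
          ⟨diff_subset_Yex hu, Conn.refl (Or.inl (Yex_subset_Zex (diff_subset_Yex hu)))⟩ ?_ hux
        intro a b _ hab hb ih
        have hbY := Yex_tail ih.1 hab hb
        exact ⟨hbY, ih.2.tail hab (Or.inl (Yex_subset_Zex hbY))⟩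
      exact this.2
    exact ⟨y, hy, h2.symm.trans h1⟩
  rcases hx.2 with h1 | ⟨y, hy, hyx⟩
  · exact hY x h1
  · obtain ⟨z, hz, hyz⟩ := hY y hy
    exact ⟨z, hz, (Conn.of_adj (Or.inl hx) hyz.left_mem (adj_symm hyx)).trans hyz⟩

/-- **One block.** -/
theorem one_block {N r : ℕ} {c : ℝ} (hblk : ∀ (V Z : Set Pt) (x₀ : Pt) (r : ℕ), V.Finite →
      CC V → Z ⊆ V → CC (V \ Z) → 1 ≤ r → (∃ x ∈ bx x₀ r, x ∉ V) →
      (∀ x ∈ Z, x ∈ bx x₀ r ∨ x ∉ bx x₀ (N * r)) →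
      ∀ p ∈ Z, p ∈ bx x₀ r → ∀ q ∈ Z, q ∉ bx x₀ (N * r) →
      c ≤ Pr (Cfg (V \ Z) (dat3 V Z)) {h | ¬ Conn (V ∩ (Z ∪ dn h (-1))) p q})
    {I : Pt → Set ℤ} (hd : Dat V I) (hCC : CC V) (hI : ∀ x ∈ V ∩ Q, I x = univ)
    (hw : ∀ x, x ∉ V → (∃ y ∈ V ∩ Q, Adj y x) → ∀ a ∈ I x, 1 ≤ a) {x₀ : Pt} (hr : 1 ≤ r)
    (hO : ∃ x ∈ bx x₀ r, x ∉ V)
    (hM : ∀ x y, y ∉ M → y = x ∨ Adj y x → x ∈ bx x₀ r ∨ x ∉ bx x₀ (N * r))
    (hatt : ∀ x ∈ V \ Q, ∃ y, y ∉ V ∧ Conn ((V \ Q) ∪ Vᶜ) x y)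
    (hp : p ∈ V \ Q) (hpb : p ∈ bx x₀ r) (hq : q ∈ V \ Q) (hqb : q ∉ bx x₀ (N * r))
    {B : Set Hg} (hB : ∀ h ∈ Cfg V I, ∀ g ∈ Cfg V I, (∀ x, x ∉ V ∩ Q → h x = g x) →
      (h ∈ B ↔ g ∈ B)) :
    c * Pr (Cfg V I) (B ∩ GM V Q M) ≤ Pr (Cfg V I) (B ∩ Gs V Q p q) := by
  classical
  have hfin := Cfg_finite hd
  set φ : Hg → Set Pt × Hg := fun h =>
    (Zex V Q h, fun x => if x ∈ V \ Zex V Q h then 0 else h x) with hφ
  have hφ1 : ∀ {a b : Hg}, φ a = φ b → Zex V Q a = Zex V Q b ∧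
      ∀ x, x ∉ V \ Zex V Q b → a x = b x := by
    intro a b hab
    have e1 : Zex V Q a = Zex V Q b := congrArg Prod.fst hab
    refine ⟨e1, fun x hx => ?_⟩
    have e2 := congrFun (congrArg Prod.snd hab) x
    simp only [hφ] at e2
    rw [e1, if_neg hx, if_neg hx] at e2
    exact e2
  have hVQ : ∀ {a : Hg} {x : Pt}, x ∉ V ∩ Q → x ∉ V \ Zex V Q a := by
    intro a x hx hx'
    apply hx'.2
    exact Yex_subset_Zex (diff_subset_Yex ⟨hx'.1, fun hxQ => hx ⟨hx'.1, hxQ⟩⟩)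
  have hBc : ∀ a ∈ Cfg V I, ∀ b ∈ Cfg V I, φ a = φ b → (a ∈ B ∩ GM V Q M ↔ b ∈ B ∩ GM V Q M) := by
    intro a ha b hb hab
    obtain ⟨e1, e2⟩ := hφ1 hab
    have e3 : Yex V Q a = Yex V Q b := Yex_stop fun x hx => e2 x fun hx' => hx'.2 hx
    have e4 := hB a ha b hb fun x hx => e2 x (hVQ hx)
    simp only [mem_inter_iff, e4, GM, mem_ofPred_eq, e3]
  refine (Pr_ge_of_fiber hfin φ (Gs V Q p q) (B ∩ GM V Q M) (c := c) hBc ?_).trans
    (Pr_mono fun h _ hh => ⟨hh.1.1, hh.2⟩)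
  intro a ha haB
  set Z := Zex V Q a with hZ
  set W := V \ Z with hWdef
  have hfib : Cfg V I ∩ {b | φ b = φ a} = Cfg V I ∩ {g | ∀ x, x ∉ W → g x = a x} := by
    ext b
    constructor
    · rintro ⟨hb, hab⟩
      exact ⟨hb, (hφ1 hab).2⟩
    · rintro ⟨hb, hab⟩
      refine ⟨hb, ?_⟩
      have e1 : Zex V Q b = Z := Zex_stop fun x hx => hab x fun hx' => hx'.2 hx
      show φ b = φ a
      simp only [hφ]
      rw [e1, ← hZ]
      refine Prod.ext rfl ?_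
      funext x
      dsimp only
      split_ifs with hx
      · rfl
      · exact hab x hx
  rw [hfib, Cfg_agree ha (V' := W) sdiff_subset]
  set J : Pt → Set ℤ := fun x => if x ∈ W then I x else {a x} with hJ
  set E : Set Hg := {g | ¬ Conn (V ∩ (Z ∪ dn g (-1))) p q} with hE
  set K : Pt → Set ℤ := fun x => if x ∈ W ∨ ∃ y ∈ W, Adj y x then J x else dat3 V Z x with hK
  have hWQ : W ⊆ V ∩ Q := by
    intro x hx
    by_contra hx'
    exact hVQ hx' hx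
  have hWV : ∀ x, x ∉ W → x ∉ Z → x ∉ V := fun x h1 h2 h3 => h1 ⟨h3, h2⟩
  have hdat1 : ∀ x ∈ W, dat3 V Z x = univ := by
    intro x hx
    unfold dat3
    rw [if_neg hx.2, if_pos hx.1]
  have hdat2 : ∀ x ∈ Z, dat3 V Z x = {-3} := by
    intro x hx
    unfold dat3
    rw [if_pos hx]
  have hdat3 : ∀ x, x ∉ V → dat3 V Z x = {1} := by
    intro x hx
    unfold dat3
    rw [if_neg fun h1 => hx (Zex_subset h1), if_neg hx]
  have hdsing : ∀ x, x ∉ W → ∃ b, Odd b ∧ dat3 V Z x = {b} := by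
    intro x hx
    by_cases hxZ : x ∈ Z
    · exact ⟨-3, by decide, hdat2 x hxZ⟩
    · exact ⟨1, by decide, hdat3 x (hWV x hx hxZ)⟩
  have hJsing : ∀ x, x ∉ W → J x = {a x} := fun x hx => by
    simp only [hJ, if_neg hx]
  have hKsing : ∀ x, x ∉ W → ∃ b, Odd b ∧ K x = {b} := by
    intro x hx
    by_cases h1 : x ∈ W ∨ ∃ y ∈ W, Adj y x
    · refine ⟨a x, ha.1 x, ?_⟩
      simp only [hK, if_pos h1]
      exact hJsing x hx
    · simp only [hK, if_neg h1]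
      exact hdsing x hx
  have hWfin : W.Finite := hd.fin.subset sdiff_subset
  have hDK : Dat W K := by
    refine ⟨hWfin, fun x hx => ?_, hWfin.subset fun x hx => ?_⟩
    · obtain ⟨b, _, hb⟩ := hKsing x hx
      rw [hb]
      exact finite_singleton b
    · by_contra hx'
      obtain ⟨b, _, hb⟩ := hKsing x hx'
      rw [mem_ofPred_eq, hb] at hx
      exact hx subsingleton_singleton
  have hDd : Dat W (dat3 V Z) := by
    refine ⟨hWfin, fun x hx => ?_, hWfin.subset fun x hx => ?_⟩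
    · obtain ⟨b, _, hb⟩ := hdsing x hx
      rw [hb]
      exact finite_singleton b
    · by_contra hx'
      obtain ⟨b, _, hb⟩ := hdsing x hx'
      rw [mem_ofPred_eq, hb] at hx
      exact hx subsingleton_singleton
  have hne1 : (Cfg W (dat3 V Z)).Nonempty := by
    refine ⟨fun x => if x ∈ Z then -3 else if x ∈ V then -1 else 1, fun x => ?_, fun x => ?_,
      fun x hx y _ => ?_⟩
    · dsimp only
      split_ifs <;> decide
    · unfold dat3
      dsimp only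
      split_ifs
      · rfl
      · trivial
      · rfl
    · dsimp only
      rw [if_neg hx.2, if_pos hx.1]
      split_ifs <;> norm_num
  have hne2 : (Cfg W K).Nonempty := by
    refine ⟨fun x => if x ∈ W ∨ ∃ y ∈ W, Adj y x then a x else if x ∈ Z then -3 else 1,
      fun x => ?_, fun x => ?_, fun x hx y hxy => ?_⟩
    · dsimp only
      split_ifs
      · exact ha.1 x
      · decide
      · decide
    · dsimp only
      by_cases h1 : x ∈ W ∨ ∃ y ∈ W, Adj y x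
      · simp only [hK, if_pos h1, hJ]
        split_ifs
        · exact ha.2.1 x
        · rfl
      · simp only [hK, if_neg h1]
        split_ifs with h2
        · rw [hdat2 x h2]; rfl
        · rw [hdat3 x (hWV x (fun h3 => h1 (Or.inl h3)) h2)]; rfl
    · have hxN : x ∈ W ∨ ∃ y ∈ W, Adj y x := Or.inl hx
      have hyN : y ∈ W ∨ ∃ z ∈ W, Adj z y := Or.inr ⟨x, hx, hxy⟩
      dsimp only
      rw [if_pos hxN, if_pos hyN]
      exact ha.2.2 x hx.1 y hxy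
  have hsle : ∀ x, SLe (dat3 V Z x) (K x) := by
    intro x
    by_cases h1 : x ∈ W ∨ ∃ y ∈ W, Adj y x
    · have e1 : K x = J x := by simp only [hK, if_pos h1]
      rw [e1]
      by_cases hxW : x ∈ W
      · have e2 : J x = I x := by simp only [hJ, if_pos hxW]
        rw [e2, hdat1 x hxW, hI x (hWQ hxW)]
        exact SLe.refl _
      · rw [hJsing x hxW]
        rcases h1 with h1 | ⟨y, hy, hyx⟩
        · exact absurd h1 hxW
        by_cases hxZ : x ∈ Z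
        · rw [hdat2 x hxZ]
          apply sle_singleton
          have hxY : x ∉ Yex V Q a := fun hxY => hy.2 ⟨hy.1, Or.inr ⟨x, hxY, adj_symm hyx⟩⟩
          rcases hxZ.2 with h2 | ⟨z, hz, hzx⟩
          · exact absurd h2 hxY
          · exact (Yex_step (ha.1 x) hxZ.1 hz hzx hxY).2
        · have hxV := hWV x hxW hxZ
          rw [hdat3 x hxV]
          apply sle_singleton
          exact hw x hxV ⟨y, hWQ hy, hyx⟩ _ (ha.2.1 x)
    · have e1 : K x = dat3 V Z x := by simp only [hK, if_neg h1]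
      rw [e1]
      exact SLe.refl _
  have hEup : IsUpperSet E := by
    intro g g' hgg hg hc
    apply hg
    refine hc.mono (show V ∩ (Z ∪ dn g' (-1)) ⊆ V ∩ (Z ∪ dn g (-1)) from fun x hx => ⟨hx.1, ?_⟩)
    rcases hx.2 with h1 | h1
    · exact Or.inl h1
    · exact Or.inr ((hgg x).trans h1)
  have s1 : c ≤ Pr (Cfg W (dat3 V Z)) E := by
    refine hblk V Z x₀ r hd.fin hCC Zex_subset ?_ hr hO ?_ p ?_ hpb q ?_ hqb
    · exact cc_diff hCC fun x hx => Zex_attached hatt hx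
    · rintro x ⟨_, h1 | ⟨y, h1, h2⟩⟩
      · exact hM x x (fun hxM => haB.2 x hxM h1) (Or.inl rfl)
      · exact hM x y (fun hyM => haB.2 y hyM h1) (Or.inr h2)
    · exact Yex_subset_Zex (diff_subset_Yex hp)
    · exact Yex_subset_Zex (diff_subset_Yex hq)
  have s2 : Pr (Cfg W (dat3 V Z)) E ≤ Pr (Cfg W K) E := Pr_le_of_upper hDd hDK hne1 hne2 hsle hEup
  have s3 : Pr (Cfg W J) E = Pr (Cfg W K) E := by
    apply Pr_irrel
    · intro x hx
      simp only [hK, if_pos hx]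
    · intro x hx
      exact ⟨a x, ha.1 x, hJsing x fun h1 => hx (Or.inl h1)⟩
    · intro x hx
      exact hKsing x fun h1 => hx (Or.inl h1)
    · intro g g' hgg
      have : V ∩ (Z ∪ dn g (-1)) = V ∩ (Z ∪ dn g' (-1)) := by
        ext x
        by_cases hxZ : x ∈ Z
        · simp [hxZ]
        · by_cases hxV : x ∈ V
          · have := hgg x ⟨hxV, hxZ⟩
            simp [hxZ, hxV, dn, this]
          · simp [hxV]
      simp only [hE, mem_ofPred_eq, this]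
  have s4 : Pr (Cfg W J) E ≤ Pr (Cfg W J) (Gs V Q p q) := by
    apply Pr_mono
    intro g hg hgE hc
    apply hgE
    refine hc.mono (show V \ (Q ∩ up g 1) ⊆ V ∩ (Z ∪ dn g (-1)) from fun x hx => ⟨hx.1, ?_⟩)
    by_cases hxQ : x ∈ Q
    · refine Or.inr ?_
      show g x ≤ -1
      have h1 : ¬ 1 ≤ g x := fun h1 => hx.2 ⟨hxQ, h1⟩
      obtain ⟨k, hk⟩ := hg.1 x
      omega
    · exact Or.inl (Yex_subset_Zex (diff_subset_Yex ⟨hx.1, hxQ⟩))
  rw [← s3] at s2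
  refine ((s1.trans s2).trans s4).trans (le_of_eq ?_)
  congr 2
  funext x
  by_cases hx : x ∈ W
  · simp only [hJ, if_pos hx]
  · simp only [hJ, if_neg hx]

end Vale.Agent.P153.R2.MULT
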