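import Vale.Agent.P153.R2.MULT.Defs

/-!
# P153-R2, block MULT: general lemmas
-/

namespace Vale.Agent.P153.R2.MULT

open Set Relation
open Vale.Agent.P153 Vale.Agent.P153.Topo

/-! ### Boxes -/

theorem mem_bx {p x : Pt} {r : ℤ} : x ∈ bx p r ↔
    p.1 - r ≤ x.1 ∧ x.1 ≤ p.1 + r ∧ p.2 - r ≤ x.2 ∧ x.2 ≤ p.2 + r := by
  simp only [bx, mem_ofPred_eq, abs_le]
  omega

theorem bx_mono {p : Pt} {r s : ℤ} (h : r ≤ s) : bx p r ⊆ bx p s := by
  intro x hx
  rw [mem_bx] at hx ⊢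
  omega

theorem bx_adj {p x y : Pt} {r : ℤ} (hx : x ∈ bx p r) (h : Adj x y) : y ∈ bx p (r + 1) := by
  rw [mem_bx] at hx ⊢
  rw [adj_iff] at h
  omega

theorem not_bx_adj {p x y : Pt} {r : ℤ} (hx : x ∉ bx p r) (h : Adj x y) : y ∉ bx p (r - 1) := by
  intro hy
  have := bx_adj hy (adj_symm h)
  rw [sub_add_cancel] at this
  exact hx this

theorem cn_bx (p : Pt) (r : ℤ) {x y : Pt} (hx : x ∈ bx p r) (hy : y ∈ bx p r) :
    Conn (bx p r) x y := by
  rw [mem_bx] at hx hy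
  obtain ⟨x1, x2⟩ := x
  obtain ⟨y1, y2⟩ := y
  dsimp only at hx hy
  have e1 : Conn (bx p r) (x1, x2) (y1, x2) := conn_row fun i h1 h2 => by
    rw [mem_bx]
    dsimp only
    rcases le_total x1 y1 with h | h
    · rw [min_eq_left h] at h1; rw [max_eq_right h] at h2; omega
    · rw [min_eq_right h] at h1; rw [max_eq_left h] at h2; omega
  have e2 : Conn (bx p r) (y1, x2) (y1, y2) := conn_col fun i h1 h2 => by
    rw [mem_bx]
    dsimp only
    rcases le_total x2 y2 with h | h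
    · rw [min_eq_left h] at h1; rw [max_eq_right h] at h2; omega
    · rw [min_eq_right h] at h1; rw [max_eq_left h] at h2; omega
  exact e1.trans e2

theorem exists_off {V : Set Pt} (hV : V.Finite) {f : ℕ → Pt} (hf : Function.Injective f) :
    ∃ k, f k ∉ V := by
  by_contra hcon
  push Not at hcon
  exact Set.infinite_range_of_injective hf (hV.subset (by rintro _ ⟨n, rfl⟩; exact hcon n))

/-- From a vertex off a box one can leave the finite set `V` without entering the box. -/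
theorem leave {V : Set Pt} (hV : V.Finite) {p x : Pt} {r : ℤ} (hx : x ∉ bx p r) :
    ∃ y, y ∉ V ∧ Conn (bx p r)ᶜ x y := by
  obtain ⟨x1, x2⟩ := x
  rw [mem_bx] at hx
  dsimp only at hx
  have h4 : x1 < p.1 - r ∨ p.1 + r < x1 ∨ x2 < p.2 - r ∨ p.2 + r < x2 := by omega
  rcases h4 with h | h | h | h
  · obtain ⟨k, hk⟩ := exists_off hV (f := fun k : ℕ => ((x1 - k, x2) : Pt)) (by
      intro a b hab
      simpa using hab)
    refine ⟨_, hk, conn_row fun i h1 h2 => ?_⟩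
    rw [mem_compl_iff, mem_bx]
    dsimp only
    rw [max_eq_left (by omega)] at h2
    omega
  · obtain ⟨k, hk⟩ := exists_off hV (f := fun k : ℕ => ((x1 + k, x2) : Pt)) (by
      intro a b hab
      simpa using hab)
    refine ⟨_, hk, conn_row fun i h1 h2 => ?_⟩
    rw [mem_compl_iff, mem_bx]
    dsimp only
    rw [min_eq_left (by omega)] at h1
    omega
  · obtain ⟨k, hk⟩ := exists_off hV (f := fun k : ℕ => ((x1, x2 - k) : Pt)) (by
      intro a b hab
      simpa using hab)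
    refine ⟨_, hk, conn_col fun i h1 h2 => ?_⟩
    rw [mem_compl_iff, mem_bx]
    dsimp only
    rw [max_eq_left (by omega)] at h2
    omega
  · obtain ⟨k, hk⟩ := exists_off hV (f := fun k : ℕ => ((x1, x2 + k) : Pt)) (by
      intro a b hab
      simpa using hab)
    refine ⟨_, hk, conn_col fun i h1 h2 => ?_⟩
    rw [mem_compl_iff, mem_bx]
    dsimp only
    rw [min_eq_left (by omega)] at h1
    omega

/-- Removing a set which is attached to the outside. -/
theorem cc_diff {V C : Set Pt} (hV : CC V) (hC : ∀ x ∈ C, ∃ y, y ∉ V ∧ Conn (C ∪ Vᶜ) x y) :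
    CC (V \ C) := by
  have hsub : C ∪ Vᶜ ⊆ (V \ C)ᶜ := by
    rintro x (hx | hx) h
    · exact h.2 hx
    · exact hx h.1
  have key : ∀ x, x ∉ V \ C → ∃ y, y ∉ V ∧ Conn (V \ C)ᶜ x y := by
    intro x hx
    by_cases hxV : x ∈ V
    · have hxC : x ∈ C := by
        by_contra h
        exact hx ⟨hxV, h⟩
      obtain ⟨y, hy, h⟩ := hC x hxC
      exact ⟨y, hy, h.mono hsub⟩
    · exact ⟨x, hxV, Conn.refl hx⟩
  intro x y hx hy
  obtain ⟨x', hx', h1⟩ := key x hx
  obtain ⟨y', hy', h2⟩ := key y hy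
  have h3 : Conn (V \ C)ᶜ x' y' := (hV x' y' hx' hy').mono fun z hz => hsub (Or.inr hz)
  exact (h1.trans h3).trans h2.symm

/-- A path which starts in `C ∪ O` and reaches `O` contains a path in `C ∪ O`: stop at the first
vertex off `V`. -/
theorem first_off {V T : Set Pt} {x o : Pt} (h : Conn T x o) (ho : o ∉ V) :
    ∃ y, y ∉ V ∧ Conn ((T ∩ V) ∪ Vᶜ) x y := by
  have key : Conn ((T ∩ V) ∪ Vᶜ) x o ∨ ∃ y, y ∉ V ∧ Conn ((T ∩ V) ∪ Vᶜ) x y := by
    refine Conn.ind (S := T) (fun o => Conn ((T ∩ V) ∪ Vᶜ) x o ∨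
      ∃ y, y ∉ V ∧ Conn ((T ∩ V) ∪ Vᶜ) x y) ?_ ?_ h
    · by_cases hx : x ∈ V
      · exact Or.inl (Conn.refl (Or.inl ⟨h.left_mem, hx⟩))
      · exact Or.inl (Conn.refl (Or.inr hx))
    · intro u v hu huv hv ih
      rcases ih with ih | ih
      · refine Or.inl (ih.tail huv ?_)
        by_cases hvV : v ∈ V
        · exact Or.inl ⟨hv, hvV⟩
        · exact Or.inr hvV
      · exact Or.inr ih
  rcases key with h1 | h1
  · exact ⟨o, ho, h1⟩
  · exact h1

/-- The last excursion of a path into `Q`. -/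
theorem last_in {S Q : Set Pt} {u v : Pt} (h : Conn S u v) (hu : u ∉ Q) (hv : v ∈ Q) :
    ∃ u' w, u' ∈ S ∧ u' ∉ Q ∧ Adj u' w ∧ Conn (S ∩ Q) w v := by
  have key : v ∈ Q → ∃ u' w, u' ∈ S ∧ u' ∉ Q ∧ Adj u' w ∧ Conn (S ∩ Q) w v := by
    refine Conn.ind (S := S) (fun v => v ∈ Q → ∃ u' w, u' ∈ S ∧ u' ∉ Q ∧ Adj u' w ∧
      Conn (S ∩ Q) w v) (fun h => absurd h hu) ?_ h
    intro a b ha hab hb ih hbQ
    by_cases haQ : a ∈ Q
    · obtain ⟨u', w, h1, h2, h3, h4⟩ := ih haQ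
      exact ⟨u', w, h1, h2, h3, h4.tail hab ⟨hb, hbQ⟩⟩
    · exact ⟨a, b, ha.right_mem, haQ, hab, Conn.refl ⟨hb, hbQ⟩⟩
  exact key hv

/-- A path from `p` to `q` which is not contained in the complement of `C` meets `C`. -/
theorem meets {S C : Set Pt} {p q : Pt} (h : Conn S p q) (hC : ¬ Conn (S \ C) p q) :
    ∃ v ∈ C, Conn S p v ∧ Conn S v q := by
  by_contra hcon
  push Not at hcon
  apply hC
  have key : Conn (S \ C) p q := by
    have hp : p ∉ C := fun hp => hcon p hp (Conn.refl h.left_mem) h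
    have hg : ∀ v, Conn S p v → (∀ w, Conn S v w → Conn S p w) := fun v hv w hw => hv.trans hw
    -- induction: all the vertices joined to p along the path are off C
    have : ∀ v, Conn S p v → Conn S v q → v ∉ C := fun v h1 h2 h3 => hcon v h3 h1 h2
    refine Conn.ind (S := S) (fun v => Conn (S \ C) p v) (Conn.refl ⟨h.left_mem, hp⟩) ?_ h
    intro u v hu huv hv ih
    refine ih.tail huv ⟨hv, this v (hu.tail huv hv) ?_⟩
    exact (hu.tail huv hv).symm.trans h
  exact key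

/-! ### Single-site data -/

theorem sle_singleton {a b : ℤ} (h : a ≤ b) : SLe {a} {b} := by
  intro x hx y hy
  rw [mem_singleton_iff] at hx hy
  subst hx hy
  exact ⟨by rw [min_eq_left h]; rfl, by rw [max_eq_right h]; rfl⟩

theorem ind_mono {E : Set Hg} (hE : IsUpperSet E) : Monotone (ind E) := by
  classical
  intro h g hgh
  unfold ind
  split_ifs with h1 h2
  · exact le_rfl
  · exact absurd (hE hgh h1) h2
  · norm_num
  · exact le_rfl

theorem Pr_le_of_upper {V : Set Pt} {I J : Pt → Set ℤ} (hI : Dat V I) (hJ : Dat V J)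
    (hne : (Cfg V I).Nonempty) (hne' : (Cfg V J).Nonempty) (hIJ : ∀ x, SLe (I x) (J x))
    {E : Set Hg} (hE : IsUpperSet E) : Pr (Cfg V I) E ≤ Pr (Cfg V J) E := by
  rw [Pr_eq_Ex (Cfg_finite hI), Pr_eq_Ex (Cfg_finite hJ)]
  exact Cfg_le hI hJ hne hne' hIJ _ (ind_mono hE)

theorem Pr_le_of_lower {V : Set Pt} {I J : Pt → Set ℤ} (hI : Dat V I) (hJ : Dat V J)
    (hne : (Cfg V I).Nonempty) (hne' : (Cfg V J).Nonempty) (hIJ : ∀ x, SLe (I x) (J x))
    {E : Set Hg} (hE : IsLowerSet E) : Pr (Cfg V J) E ≤ Pr (Cfg V I) E := by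
  have h1 := Pr_le_of_upper hI hJ hne hne' hIJ (E := Eᶜ) hE.compl
  have h2 := Pr_add_compl (Cfg_finite hI) hne E
  have h3 := Pr_add_compl (Cfg_finite hJ) hne' E
  linarith

/-- Transfer of probabilities along a bijection. -/
theorem Pr_bij {α β : Type*} {S A : Set α} {T B : Set β} (f : α → β) (hf : BijOn f S T)
    (hAB : ∀ a ∈ S, a ∈ A ↔ f a ∈ B) : Pr T B = Pr S A := by
  have h1 : T = f '' S := hf.image_eq.symm
  have h2 : T ∩ B = f '' (S ∩ A) := by
    ext b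
    constructor
    · rintro ⟨h3, h4⟩
      rw [h1] at h3
      obtain ⟨a, ha, rfl⟩ := h3
      exact ⟨a, ⟨ha, (hAB a ha).2 h4⟩, rfl⟩
    · rintro ⟨a, ⟨ha, ha'⟩, rfl⟩
      exact ⟨hf.mapsTo ha, (hAB a ha).1 ha'⟩
  unfold Pr
  rw [h2, h1, hf.injOn.ncard_image, (hf.injOn.mono inter_subset_left).ncard_image]

open Classical in
/-- Data off the closed neighbourhood of `W` are irrelevant. -/
theorem Pr_irrel {W : Set Pt} {J K : Pt → Set ℤ}
    (hJK : ∀ x, (x ∈ W ∨ ∃ y ∈ W, Adj y x) → J x = K x)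
    (hJ : ∀ x, ¬ (x ∈ W ∨ ∃ y ∈ W, Adj y x) → ∃ a, Odd a ∧ J x = {a})
    (hK : ∀ x, ¬ (x ∈ W ∨ ∃ y ∈ W, Adj y x) → ∃ a, Odd a ∧ K x = {a}) {E : Set Hg}
    (hE : ∀ g g' : Hg, (∀ x ∈ W, g x = g' x) → (g ∈ E ↔ g' ∈ E)) :
    Pr (Cfg W J) E = Pr (Cfg W K) E := by
  set N : Set Pt := {x | x ∈ W ∨ ∃ y ∈ W, Adj y x} with hN
  choose! aJ hJo hJa using hJ
  choose! aK hKo hKa using hK
  symm
  have hmap : ∀ (J K : Pt → Set ℤ) (aK : Pt → ℤ) (_ : ∀ x ∈ N, J x = K x)
      (_ : ∀ x, x ∉ N → Odd (aK x)) (_ : ∀ x, x ∉ N → K x = {aK x}),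
      MapsTo (fun (g : Hg) (x : Pt) => if x ∈ N then g x else aK x) (Cfg W J) (Cfg W K) := by
    intro J K aK h1 h2 h3 g hg
    refine ⟨fun x => ?_, fun x => ?_, fun x hx y hxy => ?_⟩
    · dsimp only
      split_ifs with h
      · exact hg.1 x
      · exact h2 x h
    · dsimp only
      split_ifs with h
      · rw [← h1 x h]; exact hg.2.1 x
      · rw [h3 x h]; rfl
    · have hxN : x ∈ N := Or.inl hx
      have hyN : y ∈ N := Or.inr ⟨x, hx, hxy⟩
      dsimp only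
      rw [if_pos hxN, if_pos hyN]
      exact hg.2.2 x hx y hxy
  refine Pr_bij (fun (g : Hg) (x : Pt) => if x ∈ N then g x else aK x) ⟨?_, ?_, ?_⟩ ?_
  · exact hmap J K aK hJK hKo hKa
  · intro g hg g' hg' hgg
    funext x
    by_cases hx : x ∈ N
    · have := congrFun hgg x
      dsimp only at this
      rwa [if_pos hx, if_pos hx] at this
    · have h1 := hg.2.1 x
      have h2 := hg'.2.1 x
      rw [hJa x hx, mem_singleton_iff] at h1 h2
      rw [h1, h2]
  · intro g hg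
    refine ⟨fun x => if x ∈ N then g x else aJ x,
      hmap K J aJ (fun x hx => (hJK x hx).symm) hJo hJa hg, ?_⟩
    funext x
    dsimp only
    by_cases hx : x ∈ N
    · rw [if_pos hx, if_pos hx]
    · rw [if_neg hx]
      have h1 := hg.2.1 x
      rw [hKa x hx, mem_singleton_iff] at h1
      exact h1.symm
  · intro g _
    apply hE
    intro x hx
    rw [if_pos (show x ∈ N from Or.inl hx)]

end Vale.Agent.P153.R2.MULT
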