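import Vale.Agent.P153.R2.MULT.Mult

/-!
# P153-R2, block MULT: the multi-scale landing theorem

`mult_gen`: blocks with arbitrary centres (each inner box contains a connected piece which separates
`p` from `q`); `mult`: concentric blocks.
-/

namespace Vale.Agent.P153.R2.MULT

open Set Relation
open Vale.Agent.P153 Vale.Agent.P153.Topo

variable {V : Set Pt} {I : Pt → Set ℤ}

theorem blk_attached (hV : V.Finite) {N₁ N₂ r : ℕ} {x₀ : Pt} (hO : ∃ x ∈ bx x₀ r, x ∉ V) :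
    ∀ x ∈ V \ Blk N₁ N₂ x₀ r, ∃ y, y ∉ V ∧ Conn ((V \ Blk N₁ N₂ x₀ r) ∪ Vᶜ) x y := by
  intro x hx
  by_cases hxb : x ∈ bx x₀ (r + 1)
  · obtain ⟨o, ho, hoV⟩ := hO
    have ho' : o ∈ bx x₀ (r + 1) := bx_mono (by omega) ho
    obtain ⟨y, hy, h1⟩ := first_off (V := V) (cn_bx x₀ (r + 1) hxb ho') hoV
    have hs : bx x₀ (r + 1) ∩ V ⊆ V \ Blk N₁ N₂ x₀ r := fun z hz => ⟨hz.2, fun h2 => h2.1 hz.1⟩
    exact ⟨y, hy, h1.mono (union_subset_union_left _ hs)⟩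
  · have hxR : x ∉ bx x₀ (rR N₁ N₂ r) := fun h1 => hx.2 ⟨hxb, h1⟩
    obtain ⟨o, hoV, h1⟩ := leave hV hxR
    obtain ⟨y, hy, h2⟩ := first_off (V := V) h1 hoV
    have hs : (bx x₀ (rR N₁ N₂ r))ᶜ ∩ V ⊆ V \ Blk N₁ N₂ x₀ r := fun z hz =>
      ⟨hz.2, fun h3 => hz.1 h3.2⟩
    exact ⟨y, hy, h2.mono (union_subset_union_left _ hs)⟩

theorem le_rA {N₁ r : ℕ} (hN : 1 ≤ N₁) : r + 2 ≤ rA N₁ r := by
  unfold rA
  calc r + 2 = 1 * (r + 2) := (one_mul _).symm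
    _ ≤ N₁ * (r + 2) := Nat.mul_le_mul_right _ hN

theorem le_rR {N₁ N₂ r : ℕ} (hN : 1 ≤ N₁) : rB N₁ N₂ r ≤ rR N₁ N₂ r := by
  unfold rR
  calc rB N₁ N₂ r = 1 * rB N₁ N₂ r := (one_mul _).symm
    _ ≤ N₁ * rB N₁ N₂ r := Nat.mul_le_mul_right _ hN
    _ ≤ _ := Nat.le_succ _

/-- **Multi-scale landing, blocks with arbitrary centres.** -/
theorem mult_gen (hb : S_blk) (hc : S_circ) {ε : ℝ} (hε : 0 < ε) :
    ∃ N₁ N₂ n : ℕ, 1 ≤ N₁ ∧ 1 ≤ N₂ ∧ 0 < n ∧ ∀ (V : Set Pt) (I : Pt → Set ℤ) (xc : ℕ → Pt)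
      (rad : ℕ → ℕ) (pt : ℕ → Pt) (p q : Pt), Dat V I → (Cfg V I).Nonempty → CC V →
      (∀ x ∈ V, I x = univ) → (∀ x, x ∉ V → ∀ a ∈ I x, -1 ≤ a) →
      (∀ k < n, ∀ j < n, j ≠ k →
        Disjoint (Blk N₁ N₂ (xc j) (rad j)) (Blk N₁ N₂ (xc k) (rad k))) →
      (∀ k < n, ∃ x ∈ bx (xc k) (rad k), x ∉ V) →
      (∀ k < n, ∀ x, x ∉ V → x ∈ Ann (xc k) (rad k) (rR N₁ N₂ (rad k) + 1) → ∀ a ∈ I x, 1 ≤ a) →
      (∀ k < n, pt k ∈ V ∩ bx (xc k) (rad k)) → q ∈ V →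
      (∀ k < n, q ∉ bx (xc k) (rR N₁ N₂ (rad k))) →
      (∀ k < n, ¬ Conn (V \ {v | Conn (V ∩ bx (xc k) (rad k)) (pt k) v}) p q) →
      Pr (Cfg V I) {h | Conn (V \ ({x | ∃ k < n, x ∈ Blk N₁ N₂ (xc k) (rad k)} ∩ up h 1)) p q}
        ≤ ε := by
  classical
  obtain ⟨N₂', c, hcpos, hblk'⟩ := hb
  obtain ⟨N₁', hN₁'⟩ := hc (ε / 4) (by linarith)
  set N₁ := N₁' + 1 with hN₁
  set N₂ := N₂' + 1 with hN₂
  have hblk : ∀ (V Z : Set Pt) (x₀ : Pt) (r : ℕ), V.Finite →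
      CC V → Z ⊆ V → CC (V \ Z) → 1 ≤ r → (∃ x ∈ bx x₀ r, x ∉ V) →
      (∀ x ∈ Z, x ∈ bx x₀ r ∨ x ∉ bx x₀ (N₂ * r)) →
      ∀ p ∈ Z, p ∈ bx x₀ r → ∀ q ∈ Z, q ∉ bx x₀ (N₂ * r) →
      c ≤ Pr (Cfg (V \ Z) (dat3 V Z)) {h | ¬ Conn (V ∩ (Z ∪ dn h (-1))) p q} := by
    intro V Z x₀ r h1 h2 h3 h4 h5 h6 h7 p hp hpb q hq hqb
    have hle : (N₂' : ℤ) * r ≤ N₂ * r := by
      apply mul_le_mul_of_nonneg_right _ (by positivity)
      rw [hN₂]
      push_cast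
      omega
    exact hblk' V Z x₀ r h1 h2 h3 h4 h5 h6
      (fun x hx => (h7 x hx).imp id fun h h' => h (bx_mono hle h')) p hp hpb q hq
      fun h' => hqb (bx_mono hle h')
  have hcirc : ∀ (V : Set Pt) (x₀ : Pt) (r : ℕ), V.Finite → CC V → 1 ≤ r →
      (∃ x ∈ bx x₀ r, x ∉ V) → Pr (Cfg V (frd V 0)) {h | ∃ x ∈ bx x₀ r, ∃ y,
        y ∉ bx x₀ (N₁ * r) ∧ Conn (V ∩ dn h (-3)) x y} ≤ ε / 4 := by
    intro V x₀ r h1 h2 h3 h4
    refine (Pr_mono ?_).trans (hN₁' V x₀ r h1 h2 h3 h4)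
    rintro h _ ⟨x, hx, y, hy, hxy⟩
    refine ⟨x, hx, y, fun h' => hy (bx_mono ?_ h'), hxy⟩
    apply mul_le_mul_of_nonneg_right _ (by positivity)
    rw [hN₁]
    push_cast
    omega
  obtain ⟨n, hn⟩ := exists_nat_gt (2 / (c * ε))
  have hn0 : 0 < n := by
    have h1 : (0 : ℝ) < 2 / (c * ε) := by positivity
    exact_mod_cast h1.trans hn
  have hN1 : 1 ≤ N₁ := by omega
  refine ⟨N₁, N₂, n, hN1, by omega, hn0, ?_⟩
  intro V I xc rad pt p q hd hne hCC hI hlow hdisj hO hw hpt hqV hq hsep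
  set G : ℕ → Set Hg := fun k => Gs V (Blk N₁ N₂ (xc k) (rad k)) (pt k) q with hG
  set Gm : ℕ → Set Hg := fun k =>
    GM V (Blk N₁ N₂ (xc k) (rad k)) (Mid N₁ N₂ (xc k) (rad k)) with hGm
  have hfin := Cfg_finite hd
  have key : Pr (Cfg V I) {h | ∀ k < n, h ∉ G k} ≤ 1 / (c * n) + 2 * (ε / 4) := by
    apply sum_arg hfin n G Gm hcpos hn0
    · intro k hk
      have hrA := le_rA (r := rad k) hN1
      have hrR := le_rR (N₂ := N₂) (r := rad k) hN1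
      refine one_block (N := N₂) (r := rA N₁ (rad k) + 1) (x₀ := xc k) hblk hd hCC
        (fun x hx => hI x hx.1) ?_ (by omega) ?_ ?_ (blk_attached hd.fin (hO k hk)) ?_ ?_ ?_ ?_ ?_
      · rintro x hxV ⟨y, hy, hyx⟩
        refine hw k hk x hxV ⟨?_, ?_⟩
        · have := not_bx_adj hy.2.1 hyx
          rwa [add_sub_cancel_right] at this
        · exact bx_adj hy.2.2 hyx
      · obtain ⟨o, ho, hoV⟩ := hO k hk
        exact ⟨o, bx_mono (by exact_mod_cast (by omega : rad k ≤ rA N₁ (rad k) + 1)) ho, hoV⟩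
      · intro x y hyM hyx
        have hy : y ∈ bx (xc k) (rA N₁ (rad k)) ∨ y ∉ bx (xc k) (rB N₁ N₂ (rad k)) := by
          by_contra hcon
          push Not at hcon
          exact hyM hcon
        have hcast : ((rB N₁ N₂ (rad k) : ℕ) : ℤ) - 1 = (N₂ : ℤ) * ((rA N₁ (rad k) + 1 : ℕ) : ℤ) := by
          unfold rB
          push_cast
          ring
        rcases hy with hy | hy
        · left
          rcases hyx with rfl | hyx
          · exact bx_mono (by push_cast; omega) hy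
          · have := bx_adj hy hyx
            push_cast
            exact this
        · right
          rw [← hcast]
          rcases hyx with rfl | hyx
          · exact fun h1 => hy (bx_mono (by omega) h1)
          · exact not_bx_adj hy hyx
      · exact ⟨(hpt k hk).1, fun h1 => h1.1 (bx_mono (by omega) (hpt k hk).2)⟩
      · exact bx_mono (by exact_mod_cast (by omega : rad k ≤ rA N₁ (rad k) + 1)) (hpt k hk).2
      · exact ⟨hqV, fun h1 => hq k hk h1.2⟩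
      · refine fun h1 => hq k hk (bx_mono ?_ h1)
        have hcast : (N₂ : ℤ) * ((rA N₁ (rad k) + 1 : ℕ) : ℤ) = ((rB N₁ N₂ (rad k) : ℕ) : ℤ) - 1 := by
          unfold rB
          push_cast
          ring
        rw [hcast]
        have : ((rB N₁ N₂ (rad k) : ℕ) : ℤ) ≤ ((rR N₁ N₂ (rad k) : ℕ) : ℤ) := by exact_mod_cast hrR
        linarith
      · intro h _ g _ hhg
        have hj : ∀ j < n, j ≠ k → (h ∈ G j ↔ g ∈ G j) := by
          intro j hj hjk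
          have : V \ (Blk N₁ N₂ (xc j) (rad j) ∩ up h 1) =
              V \ (Blk N₁ N₂ (xc j) (rad j) ∩ up g 1) := by
            ext x
            by_cases hx : x ∈ Blk N₁ N₂ (xc j) (rad j)
            · have hx' : x ∉ V ∩ Blk N₁ N₂ (xc k) (rad k) := fun h1 =>
                Set.disjoint_left.1 (hdisj k hk j hj hjk) hx h1.2
              have := hhg x hx'
              simp [hx, up, this]
            · simp [hx]
          simp only [hG, Gs, mem_ofPred_eq, this]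
        constructor
        · exact fun h1 j hjn hjk hjG => h1 j hjn hjk ((hj j hjn hjk).2 hjG)
        · exact fun h1 j hjn hjk hjG => h1 j hjn hjk ((hj j hjn hjk).1 hjG)
    · intro k hk
      exact GM_bound hN1 hcirc hd hne hCC hI hlow (xc k) (rad k) N₂ (hO k hk)
  have hfinal : 1 / (c * n) + 2 * (ε / 4) ≤ ε := by
    have hn' : (0 : ℝ) < n := by exact_mod_cast hn0
    have h1 : 1 / (c * n) ≤ ε / 2 := by
      rw [div_le_div_iff₀ (by positivity) (by norm_num)]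
      rw [div_lt_iff₀ (by positivity)] at hn
      nlinarith
    linarith
  refine (Pr_mono ?_).trans (key.trans hfinal)
  intro h _ hh k hk hGk
  apply hGk
  set C : Set Pt := {v | Conn (V ∩ bx (xc k) (rad k)) (pt k) v} with hC
  set T : Set Pt := V \ ({x | ∃ k < n, x ∈ Blk N₁ N₂ (xc k) (rad k)} ∩ up h 1) with hT
  have s0 : T \ C ⊆ V \ C := fun z hz => ⟨hz.1.1, hz.2⟩
  obtain ⟨v, hvC, _, hvq⟩ := meets (S := T) (C := C) hh fun h1 => hsep k hk (h1.mono s0)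
  have s1 : V ∩ bx (xc k) (rad k) ⊆ V \ (Blk N₁ N₂ (xc k) (rad k) ∩ up h 1) := fun z hz =>
    ⟨hz.1, fun h2 => h2.1.1 (bx_mono (by omega) hz.2)⟩
  have s2 : T ⊆ V \ (Blk N₁ N₂ (xc k) (rad k) ∩ up h 1) := fun z hz =>
    ⟨hz.1, fun h2 => hz.2 ⟨⟨k, hk, h2.1⟩, h2.2⟩⟩
  have e1 : Conn (V \ (Blk N₁ N₂ (xc k) (rad k) ∩ up h 1)) (pt k) v := Conn.mono s1 hvC
  have e2 : Conn (V \ (Blk N₁ N₂ (xc k) (rad k) ∩ up h 1)) v q := hvq.mono s2
  exact e1.trans e2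

/-- Radii of concentric blocks. -/
def rads (N₁ N₂ r : ℕ) : ℕ → ℕ
  | 0 => r
  | k + 1 => rR N₁ N₂ (rads N₁ N₂ r k)

theorem rads_succ (N₁ N₂ r k : ℕ) : rads N₁ N₂ r (k + 1) = rR N₁ N₂ (rads N₁ N₂ r k) := rfl

theorem lt_rR {N₁ N₂ r : ℕ} (h1 : 1 ≤ N₁) (h2 : 1 ≤ N₂) : r < rR N₁ N₂ r := by
  have e1 := le_rA (r := r) h1
  have e2 := le_rR (N₂ := N₂) (r := r) h1
  have e3 : rA N₁ r + 1 ≤ rB N₁ N₂ r := by
    unfold rB
    calc rA N₁ r + 1 = 1 * (rA N₁ r + 1) := (one_mul _).symm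
      _ ≤ N₂ * (rA N₁ r + 1) := Nat.mul_le_mul_right _ h2
      _ ≤ _ := Nat.le_succ _
  omega

theorem rads_mono {N₁ N₂ r : ℕ} (h1 : 1 ≤ N₁) (h2 : 1 ≤ N₂) : StrictMono (rads N₁ N₂ r) :=
  strictMono_nat_of_lt_succ fun k => by
    rw [rads_succ]
    exact lt_rR h1 h2

theorem rR_le (N₁ N₂ : ℕ) {r : ℕ} (hr : 1 ≤ r) :
    rR N₁ N₂ r ≤ (N₁ * (N₂ * (3 * N₁ + 1) + 1) + 1) * r := by
  unfold rR rB rA
  have e1 : N₁ * (r + 2) + 1 ≤ (3 * N₁ + 1) * r := by nlinarith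
  have e2 : N₂ * (N₁ * (r + 2) + 1) + 1 ≤ (N₂ * (3 * N₁ + 1) + 1) * r := by
    have := Nat.mul_le_mul_left N₂ e1
    nlinarith
  have e3 := Nat.mul_le_mul_left N₁ e2
  nlinarith

theorem rads_le (N₁ N₂ : ℕ) {r : ℕ} (hr : 1 ≤ r) (h1 : 1 ≤ N₁) (h2 : 1 ≤ N₂) (k : ℕ) :
    rads N₁ N₂ r k ≤ (N₁ * (N₂ * (3 * N₁ + 1) + 1) + 1) ^ k * r := by
  induction k with
  | zero => simp [rads]
  | succ k ih =>
    rw [rads_succ]
    have hk : 1 ≤ rads N₁ N₂ r k := hr.trans ((rads_mono h1 h2).monotone (Nat.zero_le k))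
    refine (rR_le N₁ N₂ hk).trans ?_
    rw [pow_succ]
    calc (N₁ * (N₂ * (3 * N₁ + 1) + 1) + 1) * rads N₁ N₂ r k
        ≤ (N₁ * (N₂ * (3 * N₁ + 1) + 1) + 1) *
          ((N₁ * (N₂ * (3 * N₁ + 1) + 1) + 1) ^ k * r) := Nat.mul_le_mul_left _ ih
      _ = _ := by ring

/-- **Multi-scale landing.** Data at least `-1`, at least `1` on the walls in the annulus
`A(x₀; r, T r)`; the box of radius `r` meets the outside of `V`. Then, with probability at least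
`1 - ε`, the vertices of the annulus with height at least one separate `p` (in the inner box) from
`q` (outside the outer box) in `V`. -/
theorem mult (hb : S_blk) (hc : S_circ) {ε : ℝ} (hε : 0 < ε) :
    ∃ T : ℕ, 1 ≤ T ∧ ∀ (V : Set Pt) (I : Pt → Set ℤ) (x₀ : Pt) (r : ℕ) (p q : Pt), Dat V I →
      (Cfg V I).Nonempty → CC V → (∀ x ∈ V, I x = univ) → (∀ x, x ∉ V → ∀ a ∈ I x, -1 ≤ a) →
      1 ≤ r → (∃ x ∈ bx x₀ r, x ∉ V) →
      (∀ x, x ∉ V → x ∈ Ann x₀ r (T * r) → ∀ a ∈ I x, 1 ≤ a) →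
      p ∈ V → p ∈ bx x₀ r → q ∈ V → q ∉ bx x₀ (T * r) →
      Pr (Cfg V I) {h | Conn (V \ (Ann x₀ r (T * r) ∩ up h 1)) p q} ≤ ε := by
  obtain ⟨N₁, N₂, n, h1, h2, hn, key⟩ := mult_gen hb hc hε
  set A := N₁ * (N₂ * (3 * N₁ + 1) + 1) + 1 with hA
  refine ⟨A ^ n + 1, by omega, ?_⟩
  intro V I x₀ r p q hd hne hCC hI hlow hr hO hw hpV hp hqV hq
  have hmono := rads_mono (r := r) h1 h2
  have hr_le : ∀ k, (r : ℤ) ≤ rads N₁ N₂ r k := fun k => by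
    exact_mod_cast hmono.monotone (Nat.zero_le k)
  have hR_le : ∀ k < n, (rR N₁ N₂ (rads N₁ N₂ r k) : ℤ) + 1 ≤ ((A ^ n + 1 : ℕ) : ℤ) * r := by
    intro k hk
    have e1 : rR N₁ N₂ (rads N₁ N₂ r k) ≤ rads N₁ N₂ r n := by
      rw [← rads_succ]
      exact hmono.monotone hk
    have e2 := e1.trans (rads_le N₁ N₂ hr h1 h2 n)
    have e3 : rR N₁ N₂ (rads N₁ N₂ r k) + 1 ≤ (A ^ n + 1) * r := by
      rw [add_mul, one_mul]
      exact add_le_add e2 hr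
    exact_mod_cast e3
  refine (Pr_mono ?_).trans (key V I (fun _ => x₀) (rads N₁ N₂ r) (fun _ => p) p q hd hne hCC hI
    hlow ?_ ?_ ?_ ?_ hqV ?_ ?_)
  · intro h _ hh
    refine Conn.mono (S := V \ (Ann x₀ r ((A ^ n + 1 : ℕ) * r) ∩ up h 1))
      (T := V \ ({x | ∃ k < n, x ∈ Blk N₁ N₂ x₀ (rads N₁ N₂ r k)} ∩ up h 1))
      (fun z hz => ⟨hz.1, fun h3 => hz.2 ⟨?_, h3.2⟩⟩) hh
    obtain ⟨⟨k, hk, hzk⟩, _⟩ := h3
    refine ⟨fun h4 => hzk.1 (bx_mono ?_ h4), bx_mono ?_ hzk.2⟩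
    · have := hr_le k
      linarith
    · have := hR_le k hk
      linarith
  · intro k hk j hj hjk
    rw [Set.disjoint_left]
    intro x hxj hxk
    rcases lt_or_gt_of_ne hjk with hlt | hlt
    · apply hxk.1
      have e1 : rR N₁ N₂ (rads N₁ N₂ r j) ≤ rads N₁ N₂ r k := by
        rw [← rads_succ]
        exact hmono.monotone hlt
      exact bx_mono (by
        have : ((rR N₁ N₂ (rads N₁ N₂ r j) : ℕ) : ℤ) ≤ (rads N₁ N₂ r k : ℕ) := by exact_mod_cast e1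
        linarith) hxj.2
    · apply hxj.1
      have e1 : rR N₁ N₂ (rads N₁ N₂ r k) ≤ rads N₁ N₂ r j := by
        rw [← rads_succ]
        exact hmono.monotone hlt
      exact bx_mono (by
        have : ((rR N₁ N₂ (rads N₁ N₂ r k) : ℕ) : ℤ) ≤ (rads N₁ N₂ r j : ℕ) := by exact_mod_cast e1
        linarith) hxk.2
  · intro k _
    obtain ⟨o, ho, hoV⟩ := hO
    exact ⟨o, bx_mono (hr_le k) ho, hoV⟩
  · intro k hk x hxV hx
    exact hw x hxV ⟨fun h3 => hx.1 (bx_mono (hr_le k) h3), bx_mono (hR_le k hk) hx.2⟩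
  · exact fun k _ => ⟨hpV, bx_mono (hr_le k) hp⟩
  · intro k hk h3
    refine hq (bx_mono ?_ h3)
    have := hR_le k hk
    linarith
  · intro k _ h3
    exact h3.left_mem.2 (Conn.refl ⟨hpV, bx_mono (hr_le k) hp⟩)

end Vale.Agent.P153.R2.MULT
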