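import Vale.Agent.P153.R2.MULT.Block

/-!
# P153-R2, block MULT: many blocks

`sum_arg`: events `G k` (`k < n`) with `c P(B ∩ GM k) ≤ P(B ∩ G k)` for the event `B` that no other
`G j` occurs. Then `P(no G k) ≤ 1 / (c n) + η` if `P(GM k ^c) ≤ η`.
-/

namespace Vale.Agent.P153.R2.MULT

open Set Relation
open Vale.Agent.P153 Vale.Agent.P153.Topo

/-- No other event of the family occurs. -/
def Bot (n : ℕ) (G : ℕ → Set Hg) (k : ℕ) : Set Hg := {h | ∀ j < n, j ≠ k → h ∉ G j}

theorem sum_arg {S : Set Hg} (hS : S.Finite) (n : ℕ) (G GM : ℕ → Set Hg) {c η : ℝ} (hc : 0 < c)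
    (hn : 0 < n) (h1 : ∀ k < n, c * Pr S (Bot n G k ∩ GM k) ≤ Pr S (Bot n G k ∩ G k))
    (h2 : ∀ k < n, Pr S (GM k)ᶜ ≤ η) : Pr S {h | ∀ k < n, h ∉ G k} ≤ 1 / (c * n) + η := by
  classical
  set No : Set Hg := {h | ∀ k < n, h ∉ G k} with hNo
  have e1 : ∑ k ∈ Finset.range n, Pr S (Bot n G k ∩ G k) ≤ 1 := by
    have : ∑ k ∈ Finset.range n, Pr S (Bot n G k ∩ G k) =
        Ex S (fun h => ∑ k ∈ Finset.range n, ind (Bot n G k ∩ G k) h) := by
      rw [Ex_sum]
      exact Finset.sum_congr rfl fun k _ => Pr_eq_Ex hS _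
    rw [this]
    refine Ex_le_const zero_le_one fun h _ => ?_
    by_cases hex : ∃ k < n, h ∈ Bot n G k ∩ G k
    · obtain ⟨k, hk, hkh⟩ := hex
      rw [Finset.sum_eq_single k]
      · unfold ind
        split_ifs <;> norm_num
      · intro j hj hjk
        have hj' : j < n := Finset.mem_range.1 hj
        have : h ∉ Bot n G j ∩ G j := fun h3 => hkh.1 j hj' hjk h3.2
        simp [ind, this]
      · intro h3
        exact absurd (Finset.mem_range.2 hk) h3
    · push Not at hex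
      rw [Finset.sum_eq_zero]
      · norm_num
      · intro k hk
        have := hex k (Finset.mem_range.1 hk)
        simp [ind, this]
  have e2 : ∀ k < n, Pr S No - η ≤ Pr S (Bot n G k ∩ GM k) := by
    intro k hk
    have e3 : Pr S No ≤ Pr S ((Bot n G k ∩ GM k) ∪ (GM k)ᶜ) := Pr_mono fun h _ hh => by
      by_cases h3 : h ∈ GM k
      · exact Or.inl ⟨fun j hj _ => hh j hj, h3⟩
      · exact Or.inr h3
    have e4 := Pr_union_le S (Bot n G k ∩ GM k) (GM k)ᶜ
    have e5 := h2 k hk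
    linarith
  have e3 : c * (n * (Pr S No - η)) ≤ 1 := by
    have e4 : ∑ k ∈ Finset.range n, c * (Pr S No - η) ≤
        ∑ k ∈ Finset.range n, Pr S (Bot n G k ∩ G k) := by
      apply Finset.sum_le_sum
      intro k hk
      have hk' := Finset.mem_range.1 hk
      exact (mul_le_mul_of_nonneg_left (e2 k hk') hc.le).trans (h1 k hk')
    rw [Finset.sum_const, Finset.card_range, nsmul_eq_mul] at e4
    linarith
  have hn' : (0 : ℝ) < n := by exact_mod_cast hn
  have hcn : 0 < c * n := mul_pos hc hn'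
  rw [← sub_le_iff_le_add, le_div_iff₀ hcn]
  linarith

/-- Radii of a block with inner radius `r`: `[rA, rB]` is the middle part, `rR` the outer radius. -/
def rA (N₁ r : ℕ) : ℕ := N₁ * (r + 2)
def rB (N₁ N₂ r : ℕ) : ℕ := N₂ * (rA N₁ r + 1) + 1
def rR (N₁ N₂ r : ℕ) : ℕ := N₁ * rB N₁ N₂ r + 1

/-- The block. -/
def Blk (N₁ N₂ : ℕ) (x₀ : Pt) (r : ℕ) : Set Pt := Ann x₀ (r + 1) (rR N₁ N₂ r)

/-- Middle part of the block. -/
def Mid (N₁ N₂ : ℕ) (x₀ : Pt) (r : ℕ) : Set Pt := Ann x₀ (rA N₁ r) (rB N₁ N₂ r)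

/-- Shift of the free data. -/
theorem Pr_frd_shift (V : Set Pt) {A B : Set Hg} (hAB : ∀ h : Hg, h ∈ A ↔ (fun x => h x - 2) ∈ B) :
    Pr (Cfg V (frd V (-2))) B = Pr (Cfg V (frd V 0)) A := by
  classical
  refine Pr_bij (fun (h : Hg) (x : Pt) => h x - 2) ⟨?_, ?_, ?_⟩ fun h _ => hAB h
  · intro h hh
    refine ⟨fun x => (hh.1 x).sub_even (by decide), fun x => ?_, fun x hx y hxy => ?_⟩
    · have := hh.2.1 x
      unfold frd at this ⊢
      split_ifs at this ⊢
      · trivial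
      · rcases this with h1 | h1
        · left; dsimp only; rw [h1]; norm_num
        · right; rw [mem_singleton_iff] at h1 ⊢; dsimp only; rw [h1]; norm_num
      · rw [mem_singleton_iff] at this ⊢; dsimp only; rw [this]; norm_num
    · have := hh.2.2 x hx y hxy
      dsimp only
      rwa [sub_sub_sub_cancel_right]
  · intro h _ g _ hgh
    funext x
    have := congrFun hgh x
    dsimp only at this
    linarith
  · intro h hh
    refine ⟨fun x => h x + 2, ⟨fun x => (hh.1 x).add_even (by decide), fun x => ?_,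
      fun x hx y hxy => ?_⟩, ?_⟩
    · have := hh.2.1 x
      unfold frd at this ⊢
      split_ifs at this ⊢
      · trivial
      · rcases this with h1 | h1
        · left; dsimp only; rw [h1]; norm_num
        · right; rw [mem_singleton_iff] at h1 ⊢; dsimp only; rw [h1]; norm_num
      · rw [mem_singleton_iff] at this ⊢; dsimp only; rw [this]; norm_num
    · have := hh.2.2 x hx y hxy
      dsimp only
      rwa [add_sub_add_right_eq_sub]
    · funext x
      dsimp only
      ring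

theorem frd_dat {V : Set Pt} (hV : V.Finite) (m : ℤ) : Dat V (frd V m) := by
  classical
  refine ⟨hV, fun x hx => ?_, ?_⟩
  · unfold frd
    rw [if_neg hx]
    split_ifs
    · exact (finite_singleton _).insert _
    · exact finite_singleton _
  · have hfin : (nb V).Finite := by
      have : nb V ⊆ V ∪ ⋃ x ∈ V, {y | Adj x y} := by
        rintro y (hy | ⟨_, x, hx, hxy⟩)
        · exact Or.inl hy
        · exact Or.inr (mem_biUnion hx hxy)
      refine (hV.union (hV.biUnion fun x _ => ?_)).subset this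
      refine (Set.toFinite ({(x.1 + 1, x.2), (x.1 - 1, x.2), (x.1, x.2 + 1), (x.1, x.2 - 1),
        (x.1 + 1, x.2 - 1), (x.1 - 1, x.2 + 1)} : Set Pt)).subset ?_
      intro y hy
      rw [mem_ofPred_eq, adj_iff] at hy
      simp only [mem_insert_iff, mem_singleton_iff, Prod.ext_iff]
      omega
    refine hfin.subset fun x hx => ?_
    by_contra hx'
    apply hx
    unfold frd
    rw [if_neg fun h => hx' (Or.inl h), if_neg fun h => hx' (Or.inr h)]
    exact subsingleton_singleton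

theorem frd_nonempty (V : Set Pt) {m : ℤ} (hm : Even m) : (Cfg V (frd V m)).Nonempty := by
  classical
  refine ⟨fun _ => m + 1, fun _ => hm.add_one, fun x => ?_, fun x _ y _ => ?_⟩
  · unfold frd
    split_ifs
    · trivial
    · right; rfl
    · rfl
  · simp

variable {V : Set Pt} {I : Pt → Set ℤ}

/-- The explored set reaches the middle part with small probability. -/
theorem GM_bound {N₁ : ℕ} {η : ℝ} (hN : 1 ≤ N₁) (hcirc : ∀ (V : Set Pt) (x₀ : Pt) (r : ℕ),
      V.Finite → CC V → 1 ≤ r → (∃ x ∈ bx x₀ r, x ∉ V) →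
      Pr (Cfg V (frd V 0)) {h | ∃ x ∈ bx x₀ r, ∃ y, y ∉ bx x₀ (N₁ * r) ∧
        Conn (V ∩ dn h (-3)) x y} ≤ η)
    (hd : Dat V I) (hne : (Cfg V I).Nonempty) (hCC : CC V) (hI : ∀ x ∈ V, I x = univ)
    (hlow : ∀ x, x ∉ V → ∀ a ∈ I x, -1 ≤ a) (x₀ : Pt) (r N₂ : ℕ) (hO : ∃ x ∈ bx x₀ r, x ∉ V) :
    Pr (Cfg V I) (GM V (Blk N₁ N₂ x₀ r) (Mid N₁ N₂ x₀ r))ᶜ ≤ 2 * η := by
  classical
  have key : ∀ (s : ℕ), 1 ≤ s → (∃ x ∈ bx x₀ s, x ∉ V) →
      Pr (Cfg V I) {h | ∃ x ∈ bx x₀ s, ∃ y, y ∉ bx x₀ (N₁ * s) ∧ Conn (V ∩ dn h (-5)) x y} ≤ η := by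
    intro s hs hO'
    have h1 := hcirc V x₀ s hd.fin hCC hs hO'
    have h2 := Pr_frd_shift V (A := {h | ∃ x ∈ bx x₀ s, ∃ y, y ∉ bx x₀ (N₁ * s) ∧
      Conn (V ∩ dn h (-3)) x y}) (B := {h | ∃ x ∈ bx x₀ s, ∃ y, y ∉ bx x₀ (N₁ * s) ∧
      Conn (V ∩ dn h (-5)) x y}) (fun h => by
        have : dn (fun x => h x - 2) (-5) = dn h (-3) := by
          ext x
          simp only [dn, mem_ofPred_eq]
          omega
        simp only [mem_ofPred_eq, this])
    rw [← h2] at h1
    refine le_trans ?_ h1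
    refine Pr_le_of_lower (frd_dat hd.fin (-2)) hd (frd_nonempty V (by decide)) hne ?_ ?_
    · intro x
      by_cases hx : x ∈ V
      · have : frd V (-2) x = univ := by
          unfold frd
          rw [if_pos hx]
        rw [this, hI x hx]
        exact SLe.refl _
      · intro a ha b hb
        have h3 := hlow x hx b hb
        have h4 : a ≤ -1 := by
          unfold frd at ha
          rw [if_neg hx] at ha
          split_ifs at ha
          · rcases ha with ha | ha
            · rw [ha]; norm_num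
            · rw [mem_singleton_iff] at ha; rw [ha]; norm_num
          · rw [mem_singleton_iff] at ha; rw [ha]; norm_num
        have h5 : a ≤ b := h4.trans h3
        exact ⟨by rwa [min_eq_left h5], by rwa [max_eq_right h5]⟩
    · rintro g h hgh ⟨x, hx, y, hy, hxy⟩
      exact ⟨x, hx, y, hy, hxy.mono (show V ∩ dn g (-5) ⊆ V ∩ dn h (-5) from
        fun z hz => ⟨hz.1, (hgh z).trans hz.2⟩)⟩
  obtain ⟨o, ho, hoV⟩ := hO
  have hB1 : 1 ≤ rB N₁ N₂ r := by unfold rB; omega
  have hrA : r + 2 ≤ rA N₁ r := by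
    unfold rA
    calc r + 2 = 1 * (r + 2) := (one_mul _).symm
      _ ≤ N₁ * (r + 2) := Nat.mul_le_mul_right _ hN
  by_cases hAB : rA N₁ r < rB N₁ N₂ r
  · have k1 := key (r + 2) (by omega) ⟨o, bx_mono (by push_cast; omega) ho, hoV⟩
    have k2 := key (rB N₁ N₂ r) hB1 ⟨o, bx_mono (by exact_mod_cast (by omega)) ho, hoV⟩
    refine (Pr_mono ?_).trans ((Pr_union_le _ _ _).trans (by
      rw [two_mul]
      exact add_le_add k1 k2))
    intro h _ hh
    rw [mem_compl_iff, GM, mem_ofPred_eq] at hh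
    push Not at hh
    obtain ⟨v, hvM, u, hu, huv⟩ := hh
    have hBR : rB N₁ N₂ r ≤ rR N₁ N₂ r := by
      unfold rR
      calc rB N₁ N₂ r = 1 * rB N₁ N₂ r := (one_mul _).symm
        _ ≤ N₁ * rB N₁ N₂ r := Nat.mul_le_mul_right _ hN
        _ ≤ _ := Nat.le_succ _
    have hvQ : v ∈ Blk N₁ N₂ x₀ r := by
      refine ⟨fun h1 => hvM.1 (bx_mono ?_ h1), bx_mono ?_ hvM.2⟩
      · exact_mod_cast (by omega : r + 1 ≤ rA N₁ r)
      · exact_mod_cast hBR
    obtain ⟨u', w, hu'S, hu'Q, hadj, hwv⟩ := last_in huv hu.2 hvQ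
    have hwv' : Conn (V ∩ dn h (-5)) w v := by
      refine hwv.mono (show V ∩ ((Blk N₁ N₂ x₀ r)ᶜ ∪ dn h (-5)) ∩ Blk N₁ N₂ x₀ r ⊆ V ∩ dn h (-5)
        from fun z hz => ⟨hz.1.1, ?_⟩)
      rcases hz.1.2 with h1 | h1
      · exact absurd hz.2 h1
      · exact h1
    by_cases hu'b : u' ∈ bx x₀ (r + 1)
    · refine Or.inl ⟨w, ?_, v, ?_, hwv'⟩
      · have := bx_adj hu'b hadj
        push_cast
        rwa [show (r : ℤ) + 2 = r + 1 + 1 by ring]
      · have := hvM.1
        unfold rA at this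
        push_cast at this ⊢
        exact this
    · have hu'R : u' ∉ bx x₀ (rR N₁ N₂ r) := fun h1 => hu'Q ⟨hu'b, h1⟩
      refine Or.inr ⟨v, hvM.2, w, ?_, hwv'.symm⟩
      have := not_bx_adj hu'R hadj
      unfold rR at this
      push_cast at this ⊢
      rwa [show (N₁ : ℤ) * rB N₁ N₂ r + 1 - 1 = N₁ * rB N₁ N₂ r by ring] at this
  · -- the middle part is empty
    have hempty : (GM V (Blk N₁ N₂ x₀ r) (Mid N₁ N₂ x₀ r))ᶜ = ∅ := by
      rw [compl_empty_iff]
      ext h
      simp only [GM, mem_ofPred_eq, mem_univ, iff_true]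
      intro v hv
      exact absurd (bx_mono (by exact_mod_cast (by omega : rB N₁ N₂ r ≤ rA N₁ r)) hv.2) hv.1
    rw [hempty]
    have h2 : Pr (Cfg V I) ∅ = 0 := by
      unfold Pr
      simp
    rw [h2]
    have k1 := key (r + 2) (by omega) ⟨o, bx_mono (by push_cast; omega) ho, hoV⟩
    have := (Pr_nonneg (Cfg V I) _).trans k1
    linarith

end Vale.Agent.P153.R2.MULT
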